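import Vale.Agent.P062.Board
import Vale.Agent.P062.ChkB0
import Vale.Agent.P062.ChkB1
import Vale.Agent.P062.ChkB2
import Vale.Agent.P062.ChkB3

namespace Vale.Agent.P062

theorem allB : ∀ j, 1 ≤ j → j < 5815 → check tbB j = true := by
  intro j h1 h2
  by_cases c1 : j < 89
  · exact checkRange_spec _ _ _ chkB_1 j (by omega) (by omega)
  by_cases c89 : j < 175
  · exact checkRange_spec _ _ _ chkB_89 j (by omega) (by omega)
  by_cases c175 : j < 253
  · exact checkRange_spec _ _ _ chkB_175 j (by omega) (by omega)
  by_cases c253 : j < 328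
  · exact checkRange_spec _ _ _ chkB_253 j (by omega) (by omega)
  by_cases c328 : j < 403
  · exact checkRange_spec _ _ _ chkB_328 j (by omega) (by omega)
  by_cases c403 : j < 478
  · exact checkRange_spec _ _ _ chkB_403 j (by omega) (by omega)
  by_cases c478 : j < 552
  · exact checkRange_spec _ _ _ chkB_478 j (by omega) (by omega)
  by_cases c552 : j < 626
  · exact checkRange_spec _ _ _ chkB_552 j (by omega) (by omega)
  by_cases c626 : j < 693
  · exact checkRange_spec _ _ _ chkB_626 j (by omega) (by omega)
  by_cases c693 : j < 762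
  · exact checkRange_spec _ _ _ chkB_693 j (by omega) (by omega)
  by_cases c762 : j < 832
  · exact checkRange_spec _ _ _ chkB_762 j (by omega) (by omega)
  by_cases c832 : j < 901
  · exact checkRange_spec _ _ _ chkB_832 j (by omega) (by omega)
  by_cases c901 : j < 969
  · exact checkRange_spec _ _ _ chkB_901 j (by omega) (by omega)
  by_cases c969 : j < 1036
  · exact checkRange_spec _ _ _ chkB_969 j (by omega) (by omega)
  by_cases c1036 : j < 1103
  · exact checkRange_spec _ _ _ chkB_1036 j (by omega) (by omega)
  by_cases c1103 : j < 1169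
  · exact checkRange_spec _ _ _ chkB_1103 j (by omega) (by omega)
  by_cases c1169 : j < 1235
  · exact checkRange_spec _ _ _ chkB_1169 j (by omega) (by omega)
  by_cases c1235 : j < 1302
  · exact checkRange_spec _ _ _ chkB_1235 j (by omega) (by omega)
  by_cases c1302 : j < 1363
  · exact checkRange_spec _ _ _ chkB_1302 j (by omega) (by omega)
  by_cases c1363 : j < 1424
  · exact checkRange_spec _ _ _ chkB_1363 j (by omega) (by omega)
  by_cases c1424 : j < 1483
  · exact checkRange_spec _ _ _ chkB_1424 j (by omega) (by omega)
  by_cases c1483 : j < 1541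
  · exact checkRange_spec _ _ _ chkB_1483 j (by omega) (by omega)
  by_cases c1541 : j < 1602
  · exact checkRange_spec _ _ _ chkB_1541 j (by omega) (by omega)
  by_cases c1602 : j < 1661
  · exact checkRange_spec _ _ _ chkB_1602 j (by omega) (by omega)
  by_cases c1661 : j < 1719
  · exact checkRange_spec _ _ _ chkB_1661 j (by omega) (by omega)
  by_cases c1719 : j < 1779
  · exact checkRange_spec _ _ _ chkB_1719 j (by omega) (by omega)
  by_cases c1779 : j < 1838
  · exact checkRange_spec _ _ _ chkB_1779 j (by omega) (by omega)
  by_cases c1838 : j < 1891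
  · exact checkRange_spec _ _ _ chkB_1838 j (by omega) (by omega)
  by_cases c1891 : j < 1948
  · exact checkRange_spec _ _ _ chkB_1891 j (by omega) (by omega)
  by_cases c1948 : j < 2007
  · exact checkRange_spec _ _ _ chkB_1948 j (by omega) (by omega)
  by_cases c2007 : j < 2064
  · exact checkRange_spec _ _ _ chkB_2007 j (by omega) (by omega)
  by_cases c2064 : j < 2121
  · exact checkRange_spec _ _ _ chkB_2064 j (by omega) (by omega)
  by_cases c2121 : j < 2178
  · exact checkRange_spec _ _ _ chkB_2121 j (by omega) (by omega)
  by_cases c2178 : j < 2233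
  · exact checkRange_spec _ _ _ chkB_2178 j (by omega) (by omega)
  by_cases c2233 : j < 2286
  · exact checkRange_spec _ _ _ chkB_2233 j (by omega) (by omega)
  by_cases c2286 : j < 2340
  · exact checkRange_spec _ _ _ chkB_2286 j (by omega) (by omega)
  by_cases c2340 : j < 2395
  · exact checkRange_spec _ _ _ chkB_2340 j (by omega) (by omega)
  by_cases c2395 : j < 2447
  · exact checkRange_spec _ _ _ chkB_2395 j (by omega) (by omega)
  by_cases c2447 : j < 2499
  · exact checkRange_spec _ _ _ chkB_2447 j (by omega) (by omega)
  by_cases c2499 : j < 2554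
  · exact checkRange_spec _ _ _ chkB_2499 j (by omega) (by omega)
  by_cases c2554 : j < 2605
  · exact checkRange_spec _ _ _ chkB_2554 j (by omega) (by omega)
  by_cases c2605 : j < 2656
  · exact checkRange_spec _ _ _ chkB_2605 j (by omega) (by omega)
  by_cases c2656 : j < 2707
  · exact checkRange_spec _ _ _ chkB_2656 j (by omega) (by omega)
  by_cases c2707 : j < 2753
  · exact checkRange_spec _ _ _ chkB_2707 j (by omega) (by omega)
  by_cases c2753 : j < 2800
  · exact checkRange_spec _ _ _ chkB_2753 j (by omega) (by omega)
  by_cases c2800 : j < 2848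
  · exact checkRange_spec _ _ _ chkB_2800 j (by omega) (by omega)
  by_cases c2848 : j < 2894
  · exact checkRange_spec _ _ _ chkB_2848 j (by omega) (by omega)
  by_cases c2894 : j < 2943
  · exact checkRange_spec _ _ _ chkB_2894 j (by omega) (by omega)
  by_cases c2943 : j < 2990
  · exact checkRange_spec _ _ _ chkB_2943 j (by omega) (by omega)
  by_cases c2990 : j < 3035
  · exact checkRange_spec _ _ _ chkB_2990 j (by omega) (by omega)
  by_cases c3035 : j < 3079
  · exact checkRange_spec _ _ _ chkB_3035 j (by omega) (by omega)
  by_cases c3079 : j < 3117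
  · exact checkRange_spec _ _ _ chkB_3079 j (by omega) (by omega)
  by_cases c3117 : j < 3162
  · exact checkRange_spec _ _ _ chkB_3117 j (by omega) (by omega)
  by_cases c3162 : j < 3210
  · exact checkRange_spec _ _ _ chkB_3162 j (by omega) (by omega)
  by_cases c3210 : j < 3255
  · exact checkRange_spec _ _ _ chkB_3210 j (by omega) (by omega)
  by_cases c3255 : j < 3300
  · exact checkRange_spec _ _ _ chkB_3255 j (by omega) (by omega)
  by_cases c3300 : j < 3344
  · exact checkRange_spec _ _ _ chkB_3300 j (by omega) (by omega)
  by_cases c3344 : j < 3385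
  · exact checkRange_spec _ _ _ chkB_3344 j (by omega) (by omega)
  by_cases c3385 : j < 3429
  · exact checkRange_spec _ _ _ chkB_3385 j (by omega) (by omega)
  by_cases c3429 : j < 3473
  · exact checkRange_spec _ _ _ chkB_3429 j (by omega) (by omega)
  by_cases c3473 : j < 3517
  · exact checkRange_spec _ _ _ chkB_3473 j (by omega) (by omega)
  by_cases c3517 : j < 3556
  · exact checkRange_spec _ _ _ chkB_3517 j (by omega) (by omega)
  by_cases c3556 : j < 3595
  · exact checkRange_spec _ _ _ chkB_3556 j (by omega) (by omega)
  by_cases c3595 : j < 3629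
  · exact checkRange_spec _ _ _ chkB_3595 j (by omega) (by omega)
  by_cases c3629 : j < 3669
  · exact checkRange_spec _ _ _ chkB_3629 j (by omega) (by omega)
  by_cases c3669 : j < 3708
  · exact checkRange_spec _ _ _ chkB_3669 j (by omega) (by omega)
  by_cases c3708 : j < 3744
  · exact checkRange_spec _ _ _ chkB_3708 j (by omega) (by omega)
  by_cases c3744 : j < 3783
  · exact checkRange_spec _ _ _ chkB_3744 j (by omega) (by omega)
  by_cases c3783 : j < 3815
  · exact checkRange_spec _ _ _ chkB_3783 j (by omega) (by omega)
  by_cases c3815 : j < 3851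
  · exact checkRange_spec _ _ _ chkB_3815 j (by omega) (by omega)
  by_cases c3851 : j < 3889
  · exact checkRange_spec _ _ _ chkB_3851 j (by omega) (by omega)
  by_cases c3889 : j < 3926
  · exact checkRange_spec _ _ _ chkB_3889 j (by omega) (by omega)
  by_cases c3926 : j < 3967
  · exact checkRange_spec _ _ _ chkB_3926 j (by omega) (by omega)
  by_cases c3967 : j < 4003
  · exact checkRange_spec _ _ _ chkB_3967 j (by omega) (by omega)
  by_cases c4003 : j < 4040
  · exact checkRange_spec _ _ _ chkB_4003 j (by omega) (by omega)
  by_cases c4040 : j < 4078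
  · exact checkRange_spec _ _ _ chkB_4040 j (by omega) (by omega)
  by_cases c4078 : j < 4113
  · exact checkRange_spec _ _ _ chkB_4078 j (by omega) (by omega)
  by_cases c4113 : j < 4149
  · exact checkRange_spec _ _ _ chkB_4113 j (by omega) (by omega)
  by_cases c4149 : j < 4188
  · exact checkRange_spec _ _ _ chkB_4149 j (by omega) (by omega)
  by_cases c4188 : j < 4223
  · exact checkRange_spec _ _ _ chkB_4188 j (by omega) (by omega)
  by_cases c4223 : j < 4256
  · exact checkRange_spec _ _ _ chkB_4223 j (by omega) (by omega)
  by_cases c4256 : j < 4289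
  · exact checkRange_spec _ _ _ chkB_4256 j (by omega) (by omega)
  by_cases c4289 : j < 4320
  · exact checkRange_spec _ _ _ chkB_4289 j (by omega) (by omega)
  by_cases c4320 : j < 4355
  · exact checkRange_spec _ _ _ chkB_4320 j (by omega) (by omega)
  by_cases c4355 : j < 4386
  · exact checkRange_spec _ _ _ chkB_4355 j (by omega) (by omega)
  by_cases c4386 : j < 4417
  · exact checkRange_spec _ _ _ chkB_4386 j (by omega) (by omega)
  by_cases c4417 : j < 4446
  · exact checkRange_spec _ _ _ chkB_4417 j (by omega) (by omega)
  by_cases c4446 : j < 4477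
  · exact checkRange_spec _ _ _ chkB_4446 j (by omega) (by omega)
  by_cases c4477 : j < 4507
  · exact checkRange_spec _ _ _ chkB_4477 j (by omega) (by omega)
  by_cases c4507 : j < 4536
  · exact checkRange_spec _ _ _ chkB_4507 j (by omega) (by omega)
  by_cases c4536 : j < 4564
  · exact checkRange_spec _ _ _ chkB_4536 j (by omega) (by omega)
  by_cases c4564 : j < 4593
  · exact checkRange_spec _ _ _ chkB_4564 j (by omega) (by omega)
  by_cases c4593 : j < 4624
  · exact checkRange_spec _ _ _ chkB_4593 j (by omega) (by omega)
  by_cases c4624 : j < 4653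
  · exact checkRange_spec _ _ _ chkB_4624 j (by omega) (by omega)
  by_cases c4653 : j < 4684
  · exact checkRange_spec _ _ _ chkB_4653 j (by omega) (by omega)
  by_cases c4684 : j < 4714
  · exact checkRange_spec _ _ _ chkB_4684 j (by omega) (by omega)
  by_cases c4714 : j < 4743
  · exact checkRange_spec _ _ _ chkB_4714 j (by omega) (by omega)
  by_cases c4743 : j < 4774
  · exact checkRange_spec _ _ _ chkB_4743 j (by omega) (by omega)
  by_cases c4774 : j < 4804
  · exact checkRange_spec _ _ _ chkB_4774 j (by omega) (by omega)
  by_cases c4804 : j < 4830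
  · exact checkRange_spec _ _ _ chkB_4804 j (by omega) (by omega)
  by_cases c4830 : j < 4858
  · exact checkRange_spec _ _ _ chkB_4830 j (by omega) (by omega)
  by_cases c4858 : j < 4887
  · exact checkRange_spec _ _ _ chkB_4858 j (by omega) (by omega)
  by_cases c4887 : j < 4911
  · exact checkRange_spec _ _ _ chkB_4887 j (by omega) (by omega)
  by_cases c4911 : j < 4939
  · exact checkRange_spec _ _ _ chkB_4911 j (by omega) (by omega)
  by_cases c4939 : j < 4964
  · exact checkRange_spec _ _ _ chkB_4939 j (by omega) (by omega)
  by_cases c4964 : j < 4990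
  · exact checkRange_spec _ _ _ chkB_4964 j (by omega) (by omega)
  by_cases c4990 : j < 5021
  · exact checkRange_spec _ _ _ chkB_4990 j (by omega) (by omega)
  by_cases c5021 : j < 5045
  · exact checkRange_spec _ _ _ chkB_5021 j (by omega) (by omega)
  by_cases c5045 : j < 5070
  · exact checkRange_spec _ _ _ chkB_5045 j (by omega) (by omega)
  by_cases c5070 : j < 5095
  · exact checkRange_spec _ _ _ chkB_5070 j (by omega) (by omega)
  by_cases c5095 : j < 5122
  · exact checkRange_spec _ _ _ chkB_5095 j (by omega) (by omega)
  by_cases c5122 : j < 5147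
  · exact checkRange_spec _ _ _ chkB_5122 j (by omega) (by omega)
  by_cases c5147 : j < 5171
  · exact checkRange_spec _ _ _ chkB_5147 j (by omega) (by omega)
  by_cases c5171 : j < 5198
  · exact checkRange_spec _ _ _ chkB_5171 j (by omega) (by omega)
  by_cases c5198 : j < 5221
  · exact checkRange_spec _ _ _ chkB_5198 j (by omega) (by omega)
  by_cases c5221 : j < 5242
  · exact checkRange_spec _ _ _ chkB_5221 j (by omega) (by omega)
  by_cases c5242 : j < 5264
  · exact checkRange_spec _ _ _ chkB_5242 j (by omega) (by omega)
  by_cases c5264 : j < 5288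
  · exact checkRange_spec _ _ _ chkB_5264 j (by omega) (by omega)
  by_cases c5288 : j < 5311
  · exact checkRange_spec _ _ _ chkB_5288 j (by omega) (by omega)
  by_cases c5311 : j < 5337
  · exact checkRange_spec _ _ _ chkB_5311 j (by omega) (by omega)
  by_cases c5337 : j < 5358
  · exact checkRange_spec _ _ _ chkB_5337 j (by omega) (by omega)
  by_cases c5358 : j < 5378
  · exact checkRange_spec _ _ _ chkB_5358 j (by omega) (by omega)
  by_cases c5378 : j < 5399
  · exact checkRange_spec _ _ _ chkB_5378 j (by omega) (by omega)
  by_cases c5399 : j < 5421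
  · exact checkRange_spec _ _ _ chkB_5399 j (by omega) (by omega)
  by_cases c5421 : j < 5438
  · exact checkRange_spec _ _ _ chkB_5421 j (by omega) (by omega)
  by_cases c5438 : j < 5461
  · exact checkRange_spec _ _ _ chkB_5438 j (by omega) (by omega)
  by_cases c5461 : j < 5478
  · exact checkRange_spec _ _ _ chkB_5461 j (by omega) (by omega)
  by_cases c5478 : j < 5495
  · exact checkRange_spec _ _ _ chkB_5478 j (by omega) (by omega)
  by_cases c5495 : j < 5514
  · exact checkRange_spec _ _ _ chkB_5495 j (by omega) (by omega)
  by_cases c5514 : j < 5535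
  · exact checkRange_spec _ _ _ chkB_5514 j (by omega) (by omega)
  by_cases c5535 : j < 5554
  · exact checkRange_spec _ _ _ chkB_5535 j (by omega) (by omega)
  by_cases c5554 : j < 5571
  · exact checkRange_spec _ _ _ chkB_5554 j (by omega) (by omega)
  by_cases c5571 : j < 5588
  · exact checkRange_spec _ _ _ chkB_5571 j (by omega) (by omega)
  by_cases c5588 : j < 5603
  · exact checkRange_spec _ _ _ chkB_5588 j (by omega) (by omega)
  by_cases c5603 : j < 5619
  · exact checkRange_spec _ _ _ chkB_5603 j (by omega) (by omega)
  by_cases c5619 : j < 5633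
  · exact checkRange_spec _ _ _ chkB_5619 j (by omega) (by omega)
  by_cases c5633 : j < 5648
  · exact checkRange_spec _ _ _ chkB_5633 j (by omega) (by omega)
  by_cases c5648 : j < 5659
  · exact checkRange_spec _ _ _ chkB_5648 j (by omega) (by omega)
  by_cases c5659 : j < 5672
  · exact checkRange_spec _ _ _ chkB_5659 j (by omega) (by omega)
  by_cases c5672 : j < 5685
  · exact checkRange_spec _ _ _ chkB_5672 j (by omega) (by omega)
  by_cases c5685 : j < 5698
  · exact checkRange_spec _ _ _ chkB_5685 j (by omega) (by omega)
  by_cases c5698 : j < 5711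
  · exact checkRange_spec _ _ _ chkB_5698 j (by omega) (by omega)
  by_cases c5711 : j < 5723
  · exact checkRange_spec _ _ _ chkB_5711 j (by omega) (by omega)
  by_cases c5723 : j < 5734
  · exact checkRange_spec _ _ _ chkB_5723 j (by omega) (by omega)
  by_cases c5734 : j < 5742
  · exact checkRange_spec _ _ _ chkB_5734 j (by omega) (by omega)
  by_cases c5742 : j < 5754
  · exact checkRange_spec _ _ _ chkB_5742 j (by omega) (by omega)
  by_cases c5754 : j < 5765
  · exact checkRange_spec _ _ _ chkB_5754 j (by omega) (by omega)
  by_cases c5765 : j < 5774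
  · exact checkRange_spec _ _ _ chkB_5765 j (by omega) (by omega)
  by_cases c5774 : j < 5783
  · exact checkRange_spec _ _ _ chkB_5774 j (by omega) (by omega)
  by_cases c5783 : j < 5788
  · exact checkRange_spec _ _ _ chkB_5783 j (by omega) (by omega)
  by_cases c5788 : j < 5797
  · exact checkRange_spec _ _ _ chkB_5788 j (by omega) (by omega)
  by_cases c5797 : j < 5803
  · exact checkRange_spec _ _ _ chkB_5797 j (by omega) (by omega)
  by_cases c5803 : j < 5809
  · exact checkRange_spec _ _ _ chkB_5803 j (by omega) (by omega)
  by_cases c5809 : j < 5811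
  · exact checkRange_spec _ _ _ chkB_5809 j (by omega) (by omega)
  by_cases c5811 : j < 5814
  · exact checkRange_spec _ _ _ chkB_5811 j (by omega) (by omega)
  by_cases c5814 : j < 5815
  · exact checkRange_spec _ _ _ chkB_5814 j (by omega) (by omega)
  omega

theorem winB : WB board 21 ∅ ∅ := by
  have H := all_validB board tbB 5815 (by decide +kernel) (by decide +kernel) allB 5814 (by omega)
  have e1 : cA (tbB 5814) = [] := by decide +kernel
  have e2 : cH (tbB 5814) = 21 := by decide +kernel
  rw [e1, e2] at H
  exact WB_of_valid (by omega) H (by decide +kernel)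

theorem W_of_WB (R : Finset Cell) : ∀ (h : ℕ) (M B : Finset Cell), WB R h M B → W h M B
  | 0, _, _, H => H
  | h + 1, _, _, ⟨p, _, h1, h2, H⟩ => ⟨p, h1, h2, fun x a b => W_of_WB R h _ _ (H x a b)⟩

theorem win24 : W 24 ∅ ∅ := W_mono (by omega) (W_of_WB _ _ _ _ winB)

end Vale.Agent.P062
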